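import Vale.Agent.H12.Flat.Final

set_option autoImplicit false

namespace Vale.Agent.Results.P110.Rigidity

open Complex Filter

/-- `P(z) = ∑_{k < N} a_k z^k` is `c`-flat: `(1 - c) √N ≤ |P(z)| ≤ (1 + c) √N` on `|z| = 1` -/
def FlatPoly (c : ℝ) (N : ℕ) (a : ℕ → ℂ) : Prop :=
  ∀ z : ℂ, ‖z‖ = 1 → (1 - c) * √N ≤ ‖∑ k ∈ Finset.range N, a k * z ^ k‖ ∧
    ‖∑ k ∈ Finset.range N, a k * z ^ k‖ ≤ (1 + c) * √N

/-- the `±1` coefficients of the real Littlewood polynomial of length `N` given by a sign vector -/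
noncomputable def signs {N : ℕ} (e : Fin N → Bool) (k : ℕ) : ℂ :=
  if h : k < N then (if e ⟨k, h⟩ then 1 else -1) else 1

/-- Rigidity of nearly flat polynomials with unimodular (in particular `±1`) coefficients.
(1) every segment `∑_{m ≤ k < n} a_k z^k` of a flat polynomial of length `N` has mean fourth power
at least `((n - m)/N - δ) N^2` (a flat segment would have `(n - m)^2`);
(2) hence no segment whose length is between `δ N` and `(1 - δ) N` is flat, not even from above;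
(3) hence no infinite sequence has ultraflat initial segments along lengths of bounded ratio;
(4) at most `exp (η N)` of the `2 ^ N` real Littlewood polynomials of length `N` are `c`-flat. -/
theorem result :
    (∀ δ : ℝ, 0 < δ → ∃ c : ℝ, 0 < c ∧ ∃ N₀ : ℕ, ∀ N : ℕ, N₀ ≤ N → ∀ a : ℕ → ℂ,
      (∀ k, ‖a k‖ = 1) → FlatPoly c N a → ∀ m n : ℕ, m ≤ n → n ≤ N →
        (((n : ℝ) - m) / N - δ) * (N : ℝ) ^ 2 ≤ (2 * Real.pi)⁻¹ *
          ∫ θ in (0 : ℝ)..(2 * Real.pi), ‖∑ k ∈ Finset.Ico m n, a k * exp (I * θ) ^ k‖ ^ 4) ∧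
    (∀ δ : ℝ, 0 < δ → ∃ c : ℝ, 0 < c ∧ ∃ N₀ : ℕ, ∀ N : ℕ, N₀ ≤ N → ∀ a : ℕ → ℂ,
      (∀ k, ‖a k‖ = 1) → FlatPoly c N a → ∀ m n : ℕ, m ≤ n → n ≤ N →
        δ * N ≤ (n : ℝ) - m → (n : ℝ) - m ≤ (1 - δ) * N →
          ∃ z : ℂ, ‖z‖ = 1 ∧
            (1 + δ / 16) * √((n : ℝ) - m) < ‖∑ k ∈ Finset.Ico m n, a k * z ^ k‖) ∧
    (∀ a : ℕ → ℂ, (∀ k, ‖a k‖ = 1) → ∀ (K : ℝ) (L : ℕ → ℕ), Tendsto L atTop atTop →
      (∀ i, (L (i + 1) : ℝ) ≤ K * L i) →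
        ¬ ∀ c : ℝ, 0 < c → ∀ᶠ i in atTop, FlatPoly c (L i) a) ∧
    (∀ η : ℝ, 0 < η → ∃ c : ℝ, 0 < c ∧ ∃ N₀ : ℕ, ∀ N : ℕ, N₀ ≤ N →
      (Nat.card {e : Fin N → Bool // FlatPoly c N (signs e)} : ℝ) ≤ Real.exp (η * N)) := by
  refine ⟨fun δ hδ => ?_, fun δ hδ => H12.Flat.no_flat_segment hδ,
    fun a ha K L hL hK => H12.Flat.no_hereditary a ha K L hL hK, fun η hη => H12.Flat.flat_count hη⟩
  obtain ⟨c, hc, N₀, hN₀, H⟩ := H12.Flat.segment_L4 hδ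
  refine ⟨c, hc, N₀, fun N hN a ha hf m n hmn hn => ?_⟩
  have h := H N hN a ha hf m n hmn hn
  have hN0 : (N : ℝ) ≠ 0 := by
    have : 1 ≤ N := hN₀.trans hN
    exact_mod_cast (by omega : N ≠ 0)
  have e : (((n : ℝ) - m) / N - δ) * (N : ℝ) ^ 2 = ((n : ℝ) - m) * N - δ * N ^ 2 := by
    field_simp
  rw [e, ← div_eq_inv_mul, le_div_iff₀ Real.two_pi_pos, mul_comm]
  exact h

end Vale.Agent.Results.P110.Rigidity
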